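import Vale.Agent.P228.H951.Spec

/-!
# P228, block CH: compact abelian groups have enough characters, from the Peter-Weyl statement
(helper752)
-/

set_option autoImplicit false

namespace Vale.Agent.P228.H752

open Matrix Vale.Agent.P228.H951

open scoped ComplexOrder

variable {N : ℕ}

/-- a unitary matrix preserves the inner product -/
theorem unitary_dot (U : unitaryGroup (Fin N) ℂ) (v w : Fin N → ℂ) :
    star ((U : Matrix (Fin N) (Fin N) ℂ) *ᵥ v) ⬝ᵥ ((U : Matrix (Fin N) (Fin N) ℂ) *ᵥ w) =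
      star v ⬝ᵥ w := by
  rw [star_mulVec, dotProduct_mulVec, vecMul_vecMul]
  have h : (U : Matrix (Fin N) (Fin N) ℂ)ᴴ * (U : Matrix (Fin N) (Fin N) ℂ) = 1 :=
    mem_unitaryGroup_iff'.1 U.2
  rw [h, vecMul_one]

/-- a vector `U w - w` fixed by the unitary matrix `U` is zero -/
theorem fixed_eq_zero (U : unitaryGroup (Fin N) ℂ) (w : Fin N → ℂ)
    (h : (U : Matrix (Fin N) (Fin N) ℂ) *ᵥ ((U : Matrix (Fin N) (Fin N) ℂ) *ᵥ w - w) =
      (U : Matrix (Fin N) (Fin N) ℂ) *ᵥ w - w) :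
    (U : Matrix (Fin N) (Fin N) ℂ) *ᵥ w - w = 0 := by
  set v := (U : Matrix (Fin N) (Fin N) ℂ) *ᵥ w - w with hv
  apply dotProduct_star_self_eq_zero.1
  have h1 : star v ⬝ᵥ ((U : Matrix (Fin N) (Fin N) ℂ) *ᵥ w) = star v ⬝ᵥ w := by
    conv_lhs => rw [← h]
    exact unitary_dot U v w
  conv_lhs => rw [hv]
  rw [← hv, dotProduct_sub, h1, sub_self]

/-- **simultaneous diagonalisation**: a commutative group of unitary matrices, one of which is not
the identity, has a common eigenvector on which this matrix has an eigenvalue different from `1`. -/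
theorem common_eigenvector {K : Type*} [CommGroup K] (φ : K →* unitaryGroup (Fin N) ℂ) (a : K)
    (ha : φ a ≠ 1) : ∃ (v : Fin N → ℂ) (χ : K → ℂ), v ≠ 0 ∧
      (∀ b, (φ b : Matrix (Fin N) (Fin N) ℂ) *ᵥ v = χ b • v) ∧ χ a ≠ 1 := by
  classical
  let L : K → Module.End ℂ (Fin N → ℂ) := fun b => (φ b : Matrix (Fin N) (Fin N) ℂ).mulVecLin
  have hL : ∀ b v, L b v = (φ b : Matrix (Fin N) (Fin N) ℂ) *ᵥ v := fun _ _ => rfl
  have hcomm : ∀ b c v, L b (L c v) = L c (L b v) := by
    intro b c v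
    rw [hL, hL, hL, hL, mulVec_mulVec, mulVec_mulVec]
    congr 1
    have h1 : φ b * φ c = φ c * φ b := by rw [← map_mul, ← map_mul, mul_comm]
    exact congrArg Subtype.val h1
  -- the space `W`
  let W : Submodule ℂ (Fin N → ℂ) := LinearMap.range (L a - 1)
  have hW0 : W ≠ ⊥ := by
    intro h
    have h1 : L a - 1 = 0 := LinearMap.range_eq_bot.1 h
    apply ha
    apply Subtype.ext
    apply Matrix.mulVec_injective
    funext v
    have h2 : (L a - 1) v = 0 := by rw [h1]; rfl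
    have h3 : L a v = v := by
      have : L a v - v = 0 := h2
      exact sub_eq_zero.1 this
    rw [hL] at h3
    rw [h3]
    simp
  have hWinv : ∀ b, ∀ v ∈ W, L b v ∈ W := by
    rintro b _ ⟨w, rfl⟩
    refine ⟨L b w, ?_⟩
    change L a (L b w) - L b w = L b (L a w - w)
    rw [map_sub, hcomm]
  -- a minimal invariant subspace
  obtain ⟨V0, ⟨hV0, hVW, hVinv⟩, hmin⟩ := wellFounded_lt.has_min
    {V : Submodule ℂ (Fin N → ℂ) | V ≠ ⊥ ∧ V ≤ W ∧ ∀ b, ∀ v ∈ V, L b v ∈ V} ⟨W, hW0, le_rfl, hWinv⟩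
  obtain ⟨v, hv, hv0⟩ := V0.ne_bot_iff.1 hV0
  -- every operator is a scalar on `V0`
  have hsc : ∀ b, ∃ c : ℂ, L b v = c • v := by
    intro b
    have : Nontrivial V0 := Submodule.nontrivial_iff_ne_bot.2 hV0
    obtain ⟨c, hc⟩ := Module.End.exists_eigenvalue ((L b).restrict (hVinv b))
    obtain ⟨u, hu⟩ := hc.exists_hasEigenvector
    have hu1 : L b u = c • (u : Fin N → ℂ) := by
      have := hu.apply_eq_smul
      exact congrArg Subtype.val this
    have hu0 : (u : Fin N → ℂ) ≠ 0 := fun h => hu.2 (Subtype.ext h)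
    let E : Submodule ℂ (Fin N → ℂ) := V0 ⊓ LinearMap.ker (L b - c • 1)
    have memE : ∀ x, x ∈ E ↔ x ∈ V0 ∧ L b x = c • x := by
      intro x
      change x ∈ V0 ∧ L b x - c • x = 0 ↔ _
      rw [sub_eq_zero]
    have hE0 : E ≠ ⊥ := by
      intro h
      have : (u : Fin N → ℂ) ∈ E := (memE _).2 ⟨u.2, hu1⟩
      rw [h] at this
      exact hu0 ((Submodule.mem_bot ℂ).1 this)
    have hEinv : ∀ d, ∀ x ∈ E, L d x ∈ E := by
      intro d x hx
      obtain ⟨h1, h2⟩ := (memE x).1 hx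
      refine (memE _).2 ⟨hVinv d x h1, ?_⟩
      rw [hcomm, h2, map_smul]
    have hEV : E = V0 := by
      by_contra hne
      exact hmin E ⟨hE0, inf_le_left.trans hVW, hEinv⟩ (lt_of_le_of_ne inf_le_left hne)
    rw [← hEV] at hv
    exact ⟨c, ((memE v).1 hv).2⟩
  choose χ hχ using hsc
  refine ⟨v, χ, hv0, hχ, ?_⟩
  intro h1
  have h2 : L a v = v := by rw [hχ, h1, one_smul]
  obtain ⟨w, hw⟩ := hVW hv
  have hw' : (φ a : Matrix (Fin N) (Fin N) ℂ) *ᵥ w - w = v := hw
  have := fixed_eq_zero (φ a) w (by rw [hw']; exact h2)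
  rw [hw'] at this
  exact hv0 this

/-- **block CH** -/
theorem charStatement_of_pw.{u} (h : PWStatement.{u}) : CharStatement.{u} := by
  intro A _ _ _ _ hT a ha
  have : T2Space (Multiplicative A) := hT
  obtain ⟨N, φ, hφ, hφa⟩ := h (Multiplicative A) (Multiplicative.ofAdd a) (by
    intro h
    exact ha (by simpa using h))
  obtain ⟨v, χ, hv, hχ, hχa⟩ := common_eigenvector φ _ hφa
  have hvv : star v ⬝ᵥ v ≠ 0 := fun h => hv (dotProduct_star_self_eq_zero.1 h)
  have hnorm : ∀ b, ‖χ b‖ = 1 := by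
    intro b
    have h1 := unitary_dot (φ b) v v
    rw [hχ, star_smul, smul_dotProduct, dotProduct_smul, smul_eq_mul, smul_eq_mul, ← mul_assoc] at h1
    have h2 : star (χ b) * χ b = 1 := by
      have : star (χ b) * χ b * (star v ⬝ᵥ v) = 1 * (star v ⬝ᵥ v) := by rw [h1, one_mul]
      exact mul_right_cancel₀ hvv this
    have h3 : ‖χ b‖ * ‖χ b‖ = 1 := by
      have := congrArg norm h2
      rwa [norm_mul, norm_star, norm_one] at this
    nlinarith [norm_nonneg (χ b)]
  have hmul : ∀ b c, χ (b * c) = χ b * χ c := by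
    intro b c
    have h1 := hχ (b * c)
    have h2 : (φ (b * c) : Matrix (Fin N) (Fin N) ℂ) *ᵥ v =
        (φ b : Matrix (Fin N) (Fin N) ℂ) *ᵥ ((φ c : Matrix (Fin N) (Fin N) ℂ) *ᵥ v) := by
      rw [mulVec_mulVec, map_mul]; rfl
    rw [h2, hχ c, mulVec_smul, hχ b, smul_smul] at h1
    have h3 : (χ (b * c) - χ c * χ b) • v = 0 := by rw [sub_smul, ← h1, sub_self]
    rcases smul_eq_zero.1 h3 with h4 | h4
    · rw [sub_eq_zero.1 h4, mul_comm]
    · exact absurd h4 hv
  have hone : χ 1 = 1 := by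
    have h1 := hmul 1 1
    rw [mul_one] at h1
    have h2 : χ 1 ≠ 0 := by
      intro h0
      have := hnorm 1
      rw [h0, norm_zero] at this
      exact zero_ne_one this
    have h3 : χ 1 * 1 = χ 1 * χ 1 := by rw [mul_one]; exact h1
    exact (mul_left_cancel₀ h2 h3).symm
  let ψ : Multiplicative A →* Circle :=
    { toFun := fun b => ⟨χ b, mem_sphere_zero_iff_norm.2 (hnorm b)⟩
      map_one' := Circle.ext hone
      map_mul' := fun b c => Circle.ext (hmul b c) }
  refine ⟨ψ, ?_, ?_⟩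
  · refine Continuous.subtype_mk ?_ _
    have h1 : χ = fun b => (star v ⬝ᵥ ((φ b : Matrix (Fin N) (Fin N) ℂ) *ᵥ v)) / (star v ⬝ᵥ v) := by
      funext b
      rw [hχ, dotProduct_smul, smul_eq_mul, mul_div_assoc, div_self hvv, mul_one]
    change Continuous χ
    rw [h1]
    refine Continuous.div_const ?_ _
    exact continuous_const.dotProduct ((continuous_subtype_val.comp hφ).matrix_mulVec continuous_const)
  · intro h1
    exact hχa (congrArg Subtype.val h1)

end Vale.Agent.P228.H752
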